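import Mathlib
import Vale.Agent.P204.General.Charts
import Vale.Agent.P204.Torus.Alg

/-!
# P204 on a closed four-manifold: orientation of the charts and the pointwise wedge product
-/

open MeasureTheory Matrix Filter
open scoped ContDiff Topology

namespace Vale.Agent.P204.General

open Vale.Agent.P204.Torus

theorem skew_conj' {n m : ℕ} {A : Matrix (Fin n) (Fin n) ℝ} (hA : Aᵀ = -A)
    (T : Matrix (Fin n) (Fin m) ℝ) : (Tᵀ * A * T)ᵀ = -(Tᵀ * A * T) := by
  rw [transpose_mul, transpose_mul, transpose_transpose, hA, Matrix.neg_mul, Matrix.mul_neg,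
    Matrix.mul_assoc]

theorem det4_std : det4 (Pi.single 0 1) (Pi.single 1 1) (Pi.single 2 1) (Pi.single 3 1) = 1 := by
  simp [det4_expand]

theorem ev2_congr {A : M4} (hA : Aᵀ = -A) (T : M4) (u v : Pt) :
    ev2 (Tᵀ * A * T) u v = ev2 A (T *ᵥ u) (T *ᵥ v) := by
  rw [← dot_mulVec_eq_ev2 hA, ← dot_mulVec_eq_ev2 (skew_conj' hA T)]
  simp only [← mulVec_mulVec, dotProduct_mulVec, vecMul_transpose]

theorem det_eq_det4 (T : M4) : T.det =
    det4 (T *ᵥ Pi.single 0 1) (T *ᵥ Pi.single 1 1) (T *ᵥ Pi.single 2 1) (T *ᵥ Pi.single 3 1) := by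
  simp [det4_expand, Matrix.det_succ_row_zero, Fin.sum_univ_succ, Fin.succAbove]
  ring

/-- The wedge product is multiplied by the determinant under a linear change of coordinates. -/
theorem wedge_congr {A B : M4} (hA : Aᵀ = -A) (hB : Bᵀ = -B) (T : M4) :
    wedge (Tᵀ * A * T) (Tᵀ * B * T) = T.det * wedge A B := by
  have h := wedge_mul_det4 (Tᵀ * A * T) (Tᵀ * B * T)
    (Pi.single 0 1) (Pi.single 1 1) (Pi.single 2 1) (Pi.single 3 1)
  rw [det4_std, mul_one] at h
  rw [h, det_eq_det4]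
  conv_rhs => rw [mul_comm, wedge_mul_det4]
  simp only [ev2_congr hA, ev2_congr hB]

theorem exists_entry_bound (j : M4) : ∃ B, ∀ i k, |j i k| ≤ B :=
  ⟨∑ i, ∑ k, |j i k|, fun i k => (Finset.single_le_sum (f := fun k => |j i k|)
    (fun _ _ => abs_nonneg _) (Finset.mem_univ k)).trans (Finset.single_le_sum
    (f := fun i => ∑ k, |j i k|) (fun _ _ => Finset.sum_nonneg fun _ _ => abs_nonneg _)
    (Finset.mem_univ i))⟩

/-- There is an anti-invariant form with nonzero square. -/
theorem exists_anti_ne {j : M4} (hj : j * j = -1) :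
    ∃ A : M4, Aᵀ = -A ∧ jᵀ * A * j = -A ∧ 0 < oSgn j * wedge A A := by
  obtain ⟨k, hk⟩ := exists_frame hj
  set P : Pt := Pi.single 0 1
  set R : Pt := Pi.single k 1
  set B : M4 := dualBiv (j *ᵥ P) (j *ᵥ R)
  have hB : Bᵀ = -B := dualBiv_skew _ _
  have h1 : ev2 B P R = -det4 P (j *ᵥ P) R (j *ᵥ R) := by
    rw [← det4_eq]; simp only [det4_expand]; ring
  have h2 : ev2 (antiP j B) P R = (2 : ℝ)⁻¹ * ev2 B P R := by
    have h3 : ev2 B (j *ᵥ P) (j *ᵥ R) = 0 := by
      rw [← det4_eq]; simp only [det4_expand]; ring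
    have h4 : ev2 (antiP j B) P R =
        (2 : ℝ)⁻¹ * (ev2 B P R - ev2 (jᵀ * B * j) P R) := by
      simp only [antiP, ev2, Matrix.smul_apply, Matrix.sub_apply, smul_eq_mul]; ring
    rw [h4, ev2_congr hB, h3, sub_zero]
  have hne : sq2 (antiP j B) ≠ 0 := fun h0 => by
    have hz : ∀ i l, antiP j B i l = 0 := fun i l => by
      have := (Finset.sum_eq_zero_iff_of_nonneg
        fun i _ => Finset.sum_nonneg fun l _ => sq_nonneg _).1 h0 i (Finset.mem_univ i)
      have := (Finset.sum_eq_zero_iff_of_nonneg fun l _ => sq_nonneg _).1 this l (Finset.mem_univ l)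
      simpa using this
    rw [h1] at h2
    simp only [ev2, hz, zero_mul, add_zero] at h2
    exact hk (by linarith)
  obtain ⟨b, hb⟩ := exists_entry_bound j
  obtain ⟨c, hc, hlow⟩ := exists_anti_lower b
  refine ⟨antiP j B, antiP_skew hB, ?_, lt_of_lt_of_le ?_
    (hlow j hj hb _ (antiP_skew hB) (isAnti_antiP hj hB))⟩
  · simp only [antiP, Matrix.mul_smul, Matrix.smul_mul, Matrix.mul_sub, Matrix.sub_mul,
      conj_twice hj, ← smul_neg, neg_sub]
  · exact mul_pos hc (lt_of_le_of_ne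
      (Finset.sum_nonneg fun i _ => Finset.sum_nonneg fun l _ => sq_nonneg _) (Ne.symm hne))

variable {N K : ℕ} (A : Atlas N K)

theorem pullAt_skew (c : Fin K) (p : Pt) {M : MN N} (hM : Mᵀ = -M) :
    (A.pullAt c M p)ᵀ = -A.pullAt c M p :=
  skew_conj' hM _

namespace Atlas

theorem det_trans_mul (c d : Fin K) {p : Pt} (hp : p ∈ box) (hc : A.psi d p ∈ A.psi c '' box) :
    (A.L d * A.dmat c (A.trans c d p)) * (A.L c * A.dmat d p) = 1 := by
  rw [Matrix.mul_assoc, ← A.dmat_trans c d hp hc, A.L_mul_dmat d hp]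

theorem det_trans_ne (c d : Fin K) {p : Pt} (hp : p ∈ box) (hc : A.psi d p ∈ A.psi c '' box) :
    (A.L c * A.dmat d p).det ≠ 0 := by
  intro h
  have := congrArg Matrix.det (A.det_trans_mul c d hp hc)
  rw [det_mul, h, mul_zero, det_one] at this
  exact zero_ne_one this

theorem chi_image {c : Fin K} {x : Amb N} (hx : x ∈ A.X) (h : A.chi c x ≠ 0) :
    x ∈ A.psi c '' box :=
  A.mem_box_image (A.chi_supp c x hx h)

end Atlas

section acs
variable {J : Amb N → MN N} (hJ : IsACS A J)
include hJ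

/-- The wedge product of anti-invariant forms is positive in every chart. -/
theorem oSgn_jc (c : Fin K) {p : Pt} (hp : p ∈ box) : oSgn (A.jc J c p) = 1 := by
  obtain ⟨M, hM, hMa, hpos⟩ := exists_anti_ne (hJ.sq c p hp)
  rcases oSgn_cases (A.jc J c p) with h | h
  · exact h
  · have := hJ.pos c p hp M hM hMa
    rw [h] at hpos
    linarith

theorem jc_trans (c d : Fin K) {p : Pt} (hp : p ∈ box) (hc : A.psi d p ∈ A.psi c '' box) :
    (A.L c * A.dmat d p) * A.jc J d p =
      A.jc J c (A.trans c d p) * (A.L c * A.dmat d p) := by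
  calc (A.L c * A.dmat d p) * A.jc J d p
      = A.L c * (A.dmat d p * A.jc J d p) := Matrix.mul_assoc _ _ _
    _ = A.L c * (J (A.psi d p) * A.dmat d p) := by rw [hJ.tangent d p hp]
    _ = A.L c * J (A.psi d p) *
          (A.dmat c (A.trans c d p) * (A.L c * A.dmat d p)) := by
        rw [← A.dmat_trans c d hp hc, Matrix.mul_assoc]
    _ = _ := by
        rw [Atlas.jc, Atlas.trans, A.psi_phi c hc]
        simp only [Matrix.mul_assoc]

/-- The chart changes preserve the orientation. -/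
theorem det_trans_pos (c d : Fin K) {p : Pt} (hp : p ∈ box) (hc : A.psi d p ∈ A.psi c '' box) :
    0 < (A.L c * A.dmat d p).det := by
  set q := A.trans c d p
  have hq : q ∈ box := A.phi_mem c hc
  obtain ⟨M, hM, hMa, hpos⟩ := exists_anti_ne (hJ.sq c q hq)
  rw [oSgn_jc A hJ c hq, one_mul] at hpos
  set T := A.L c * A.dmat d p
  have hT : T * A.jc J d p = A.jc J c q * T := jc_trans A hJ c d hp hc
  have hanti : (A.jc J d p)ᵀ * (Tᵀ * M * T) * A.jc J d p = -(Tᵀ * M * T) := by
    calc (A.jc J d p)ᵀ * (Tᵀ * M * T) * A.jc J d p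
        = (T * A.jc J d p)ᵀ * M * (T * A.jc J d p) := by
          simp only [transpose_mul, Matrix.mul_assoc]
      _ = Tᵀ * ((A.jc J c q)ᵀ * M * A.jc J c q) * T := by
          rw [hT]; simp only [transpose_mul, Matrix.mul_assoc]
      _ = -(Tᵀ * M * T) := by rw [hMa]; simp only [Matrix.mul_neg, Matrix.neg_mul]
  have h := hJ.pos d p hp _ (skew_conj' hM T) hanti
  rw [wedge_congr hM hM] at h
  exact lt_of_le_of_ne (nonneg_of_mul_nonneg_left h hpos) (Ne.symm (A.det_trans_ne c d hp hc))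

/-- The reference density is positive. -/
theorem dens_pos (d : Fin K) {p : Pt} (hp : p ∈ box) : 0 < A.dens d p := by
  have hx := A.psi_mem d p hp
  obtain ⟨c, -, hc⟩ := Finset.exists_ne_zero_of_sum_ne_zero
    ((A.chi_sum _ hx).symm ▸ one_ne_zero : ∑ c, A.chi c (A.psi d p) ≠ 0)
  refine Finset.sum_pos' (fun e _ => ?_) ⟨c, Finset.mem_univ c, mul_pos
    (lt_of_le_of_ne (A.chi_nonneg c _) (Ne.symm hc)) (det_trans_pos A hJ c d hp (A.chi_image hx hc))⟩
  by_cases he : A.chi e (A.psi d p) = 0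
  · simp [he]
  · exact mul_nonneg (A.chi_nonneg e _) (det_trans_pos A hJ e d hp (A.chi_image hx he)).le

/-- The invariant and anti-invariant parts in a chart. -/
theorem pullAt_antiX (c : Fin K) {p : Pt} (hp : p ∈ box) (M : MN N) :
    A.pullAt c (antiX J (A.psi c p) M) p = antiP (A.jc J c p) (A.pullAt c M p) := by
  have h := hJ.tangent c p hp
  have h1 : (A.dmat c p)ᵀ * ((J (A.psi c p))ᵀ * M * J (A.psi c p)) * A.dmat c p =
      (A.jc J c p)ᵀ * ((A.dmat c p)ᵀ * M * A.dmat c p) * A.jc J c p := by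
    calc _ = (J (A.psi c p) * A.dmat c p)ᵀ * M * (J (A.psi c p) * A.dmat c p) := by
          simp only [transpose_mul, Matrix.mul_assoc]
      _ = _ := by rw [h]; simp only [transpose_mul, Matrix.mul_assoc]
  simp only [Atlas.pullAt, antiX, antiP, Matrix.mul_smul, Matrix.smul_mul, Matrix.mul_sub,
    Matrix.sub_mul, h1]

theorem pullAt_inv11X (c : Fin K) {p : Pt} (hp : p ∈ box) (M : MN N) :
    A.pullAt c (inv11X J (A.psi c p) M) p = inv11 (A.jc J c p) (A.pullAt c M p) := by
  have h := hJ.tangent c p hp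
  have h1 : (A.dmat c p)ᵀ * ((J (A.psi c p))ᵀ * M * J (A.psi c p)) * A.dmat c p =
      (A.jc J c p)ᵀ * ((A.dmat c p)ᵀ * M * A.dmat c p) * A.jc J c p := by
    calc _ = (J (A.psi c p) * A.dmat c p)ᵀ * M * (J (A.psi c p) * A.dmat c p) := by
          simp only [transpose_mul, Matrix.mul_assoc]
      _ = _ := by rw [h]; simp only [transpose_mul, Matrix.mul_assoc]
  simp only [Atlas.pullAt, inv11X, inv11, Matrix.mul_smul, Matrix.smul_mul, Matrix.mul_add,
    Matrix.add_mul, h1]

end acs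

/-- The wedge product against the density does not depend on the chart. -/
theorem dens_trans (c d : Fin K) {p : Pt} (hp : p ∈ box) (hc : A.psi d p ∈ A.psi c '' box) :
    A.dens d p = A.dens c (A.trans c d p) * (A.L c * A.dmat d p).det := by
  simp only [Atlas.dens, Finset.sum_mul]
  refine Finset.sum_congr rfl fun e _ => ?_
  rw [mul_assoc, ← det_mul, Matrix.mul_assoc, ← A.dmat_trans c d hp hc, Atlas.trans,
    A.psi_phi c hc]

/-- The pointwise wedge product read in any chart at the point. -/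
theorem wedgePt_chart {M M' : MN N} (hM : Mᵀ = -M) (hM' : M'ᵀ = -M') (c : Fin K) {p : Pt}
    (hp : p ∈ box) :
    A.wedgePt (A.psi c p) M M' =
      wedge (A.pullAt c M p) (A.pullAt c M' p) / A.dens c p := by
  have hx := A.psi_mem c p hp
  conv_rhs => rw [← one_mul (wedge _ _ / _), ← A.chi_sum _ hx, Finset.sum_mul]
  refine Finset.sum_congr rfl fun d _ => ?_
  by_cases hd : A.chi d (A.psi c p) = 0
  · simp [hd]
  have hc := A.chi_image hx hd
  rw [A.pullAt_trans d c hp hc M, A.pullAt_trans d c hp hc M',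
    wedge_congr (pullAt_skew A _ _ hM) (pullAt_skew A _ _ hM'), dens_trans A d c hp hc,
    mul_comm (A.dens d _), mul_div_mul_left _ _ (A.det_trans_ne d c hp hc)]
  rfl

end Vale.Agent.P204.General
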