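import Mathlib
import Vale.Agent.P204.General.Basic.Orient

/-!
# P204 on a closed four-manifold: bounds on the measure, the structure and the wedge product
-/

open MeasureTheory Matrix Filter
open scoped ContDiff Topology

namespace Vale.Agent.P204.General

open Vale.Agent.P204.Torus

variable {N K : ℕ} (A : Atlas N K)

theorem chi_le_one (c : Fin K) {x : Amb N} (hx : x ∈ A.X) : A.chi c x ≤ 1 :=
  (A.chi_sum x hx) ▸ Finset.single_le_sum (fun e _ => A.chi_nonneg e x) (Finset.mem_univ c)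

theorem measurableSet_X : MeasurableSet A.X := A.compact.isClosed.measurableSet

/-- The part of the reference measure coming from one chart. -/
noncomputable def chartVol (c : Fin K) : Measure Pt :=
  (volume.restrict box).withDensity fun p => ENNReal.ofReal (A.chi c (A.psi c p))

theorem vol_eq : A.vol = ∑ c, (chartVol A c).map (A.psi c) := rfl

theorem chartVol_ac (c : Fin K) : ∀ᵐ p ∂chartVol A c, p ∈ box :=
  ((withDensity_absolutelyContinuous _ _).ae_le
    (ae_restrict_mem isOpen_box.measurableSet))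

theorem vol_box_lt : (volume : Measure Pt) box < ⊤ := measure_ball_lt_top

instance isFiniteMeasure_chartVol (c : Fin K) : IsFiniteMeasure (chartVol A c) := by
  refine isFiniteMeasure_withDensity (ne_of_lt (lt_of_le_of_lt
    (setLIntegral_mono (g := fun _ => (1 : ENNReal)) measurable_const fun p hp =>
      (ENNReal.ofReal_le_ofReal (chi_le_one A c (A.psi_mem c p hp))).trans
        (le_of_eq ENNReal.ofReal_one)) ?_))
  simp [vol_box_lt]

instance isFiniteMeasure_vol : IsFiniteMeasure A.vol := by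
  rw [vol_eq]; infer_instance

theorem ae_mem_X : ∀ᵐ x ∂A.vol, x ∈ A.X := by
  rw [ae_iff, vol_eq, Measure.finsetSum_apply]
  refine Finset.sum_eq_zero fun c _ => ?_
  refine ae_iff.1 ((ae_map_iff (p := fun x => x ∈ A.X) (A.psi_cont c).measurable.aemeasurable
    (measurableSet_X A)).2 ?_)
  exact (chartVol_ac A c).mono fun p hp => A.psi_mem c p hp

/-- The measure of a ball is at most a multiple of the fourth power of the radius. -/
theorem exists_vol_ball : ∃ C : ℝ, 0 ≤ C ∧ ∀ x r, 0 ≤ r →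
    (A.vol {y | ‖x - y‖ ≤ r}).toReal ≤ C * r ^ 4 := by
  set l : Fin K → ℝ := fun c => ‖(Matrix.mulVecLin (A.L c)).toContinuousLinearMap‖
  refine ⟨∑ c, (4 * l c) ^ 4, Finset.sum_nonneg fun c _ => by positivity, fun x r hr => ?_⟩
  have hS : MeasurableSet {y : Amb N | ‖x - y‖ ≤ r} :=
    (isClosed_le (by fun_prop) continuous_const).measurableSet
  rw [vol_eq, Measure.finsetSum_apply, ENNReal.toReal_sum (fun c _ => measure_ne_top _ _),
    Finset.sum_mul]
  refine Finset.sum_le_sum fun c _ => ?_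
  rw [Measure.map_apply (A.psi_cont c).measurable hS, chartVol]
  set S := A.psi c ⁻¹' {y | ‖x - y‖ ≤ r}
  have hSm : MeasurableSet S := (A.psi_cont c).measurable hS
  rw [withDensity_apply _ hSm, Measure.restrict_restrict hSm]
  by_cases h0 : ∃ p ∈ S ∩ box, A.chi c (A.psi c p) ≠ 0
  · obtain ⟨p₀, ⟨hp₀, hb₀⟩, -⟩ := h0
    set B := Metric.closedBall p₀ (2 * l c * r)
    have hl : (0 : ℝ) ≤ 2 * l c * r := by positivity
    have hsub : S ∩ box ⊆ B := fun p ⟨hp, hb⟩ => by
      rw [Metric.mem_closedBall, dist_eq_norm]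
      have h1 : p - p₀ = A.L c *ᵥ (A.psi c p - A.psi c p₀) := by
        have e : A.psi c p - A.psi c p₀ = (A.psi c p - A.o c) - (A.psi c p₀ - A.o c) := by abel
        rw [e, mulVec_sub, A.left_inv c p hb, A.left_inv c p₀ hb₀]
      have h2 : ‖A.psi c p - A.psi c p₀‖ ≤ 2 * r := by
        have e : A.psi c p - A.psi c p₀ = (x - A.psi c p₀) - (x - A.psi c p) := by abel
        rw [e]
        exact (norm_sub_le _ _).trans ((add_le_add hp₀ hp).trans (le_of_eq (two_mul r).symm))
      rw [h1]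
      calc ‖A.L c *ᵥ (A.psi c p - A.psi c p₀)‖ ≤ l c * ‖A.psi c p - A.psi c p₀‖ :=
            (Matrix.mulVecLin (A.L c)).toContinuousLinearMap.le_opNorm _
        _ ≤ l c * (2 * r) := mul_le_mul_of_nonneg_left h2 (norm_nonneg _)
        _ = 2 * l c * r := by ring
    have hle : ∫⁻ p in S ∩ box, ENNReal.ofReal (A.chi c (A.psi c p)) ≤ volume B := by
      calc _ ≤ ∫⁻ _ in S ∩ box, (1 : ENNReal) := setLIntegral_mono measurable_const fun p hp =>
            (ENNReal.ofReal_le_ofReal (chi_le_one A c (A.psi_mem c p hp.2))).trans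
              (le_of_eq ENNReal.ofReal_one)
        _ = volume (S ∩ box) := setLIntegral_one _
        _ ≤ volume B := measure_mono hsub
    refine (ENNReal.toReal_mono measure_closedBall_lt_top.ne hle).trans (le_of_eq ?_)
    rw [Real.volume_pi_closedBall _ hl, ENNReal.toReal_ofReal (by positivity), Fintype.card_fin]
    ring
  · have : ∫⁻ p in S ∩ box, ENNReal.ofReal (A.chi c (A.psi c p)) = 0 :=
      setLIntegral_eq_zero (hSm.inter isOpen_box.measurableSet) fun p hp => by
        have := not_exists.1 h0 p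
        simp [show A.chi c (A.psi c p) = 0 from by
          by_contra hne; exact this ⟨hp, hne⟩]
    rw [this, ENNReal.toReal_zero]
    positivity

theorem contDiffOn_entry_mul {m n l : ℕ} {s : Set Pt} {f : Pt → Matrix (Fin m) (Fin n) ℝ}
    {g : Pt → Matrix (Fin n) (Fin l) ℝ} (hf : ∀ i k, ContDiffOn ℝ ∞ (fun p => f p i k) s)
    (hg : ∀ i k, ContDiffOn ℝ ∞ (fun p => g p i k) s) (i : Fin m) (k : Fin l) :
    ContDiffOn ℝ ∞ (fun p => (f p * g p) i k) s := by
  simp only [Matrix.mul_apply]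
  exact ContDiffOn.sum fun j _ => (hf i j).mul (hg j k)

theorem contDiffOn_det {n : ℕ} {s : Set Pt} {f : Pt → Matrix (Fin n) (Fin n) ℝ}
    (hf : ∀ i k, ContDiffOn ℝ ∞ (fun p => f p i k) s) :
    ContDiffOn ℝ ∞ (fun p => (f p).det) s := by
  simp only [Matrix.det_apply']
  exact ContDiffOn.sum fun σ _ => contDiffOn_const.mul (contDiffOn_prod fun i _ => hf _ _)

theorem contDiffOn_entry_inv {n : ℕ} {s : Set Pt} {f : Pt → Matrix (Fin n) (Fin n) ℝ}
    (hf : ∀ i k, ContDiffOn ℝ ∞ (fun p => f p i k) s) (h0 : ∀ p ∈ s, (f p).det ≠ 0)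
    (i k : Fin n) : ContDiffOn ℝ ∞ (fun p => (f p)⁻¹ i k) s := by
  simp only [Matrix.inv_def, Ring.inverse_eq_inv', Matrix.smul_apply, smul_eq_mul,
    Matrix.adjugate_apply]
  refine ((contDiffOn_det hf).inv h0).mul (contDiffOn_det fun a b => ?_)
  simp only [Matrix.updateRow_apply]
  by_cases h : a = k
  · simp only [if_pos h]; exact contDiffOn_const
  · simp only [if_neg h]; exact hf a b

theorem dmat_gram_det_ne (c : Fin K) {p : Pt} (hp : p ∈ box) :
    ((A.dmat c p)ᵀ * A.dmat c p).det ≠ 0 := by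
  intro h
  obtain ⟨v, hv, h0⟩ := Matrix.exists_mulVec_eq_zero_iff.2 h
  refine hv ?_
  have h1 : (A.dmat c p *ᵥ v) ⬝ᵥ (A.dmat c p *ᵥ v) = 0 := by
    have : v ⬝ᵥ (((A.dmat c p)ᵀ * A.dmat c p) *ᵥ v) = 0 := by rw [h0, dotProduct_zero]
    rwa [← mulVec_mulVec, dotProduct_mulVec, vecMul_transpose] at this
  rw [← A.L_mulVec_dmat c hp v, dotProduct_self_eq_zero.1 h1, mulVec_zero]

/-- A smooth function in a chart, cut off by the partition, extends smoothly to the ambient space. -/
theorem exists_smooth_ext (c : Fin K) {f : Pt → ℝ} (hf : ContDiffOn ℝ ∞ f box) :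
    ∃ F : Amb N → ℝ, ContDiff ℝ ∞ F ∧ ∀ x ∈ A.X, F x = A.chi c x * f (A.phi c x) := by
  let b : ContDiffBump (0 : Pt) := ⟨1 / 2, 3 / 4, by norm_num, by norm_num⟩
  have hb : tsupport (b : Pt → ℝ) ⊆ box := by
    rw [b.tsupport_eq]; exact Metric.closedBall_subset_ball (by norm_num)
  have hg : ContDiff ℝ ∞ fun p => b p * f p := contDiff_iff_contDiffAt.2 fun p => by
    by_cases hp : p ∈ box
    · exact b.contDiff.contDiffAt.mul (hf.contDiffAt (isOpen_box.mem_nhds hp))
    · refine contDiffAt_const (c := (0 : ℝ)).congr_of_eventuallyEq ?_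
      filter_upwards [notMem_tsupport_iff_eventuallyEq.1 fun h => hp (hb h)] with q hq
      simp [hq]
  refine ⟨fun x => A.chi c x * (b (A.phi c x) * f (A.phi c x)), (A.chi_smooth c).mul
    (hg.comp ((Matrix.mulVecLin (A.L c)).toContinuousLinearMap.contDiff.comp
      (contDiff_id.sub contDiff_const))), fun x hx => ?_⟩
  by_cases h : A.chi c x = 0
  · simp [h]
  · obtain ⟨p, hp, rfl⟩ := A.chi_supp c x hx h
    simp only [A.phi_psi c (closedBall_subset_box hp), b.one_of_mem_closedBall hp, one_mul]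

/-- The entries of `J` are Lipschitz on the manifold. -/
theorem exists_J_lipschitz {J : Amb N → MN N} (hJ : IsACS A J) :
    ∃ C : ℝ, 0 ≤ C ∧ ∀ x ∈ A.X, ∀ y ∈ A.X, ∀ i k, |J x i k - J y i k| ≤ C * ‖x - y‖ := by
  set T : Fin K → Pt → MN N := fun c p => A.dmat c p * A.jc J c p *
    ((A.dmat c p)ᵀ * A.dmat c p)⁻¹ * (A.dmat c p)ᵀ with hT
  have hTs : ∀ c i k, ContDiffOn ℝ ∞ (fun p => T c p i k) box := fun c => by
    have hD : ∀ i k, ContDiffOn ℝ ∞ (fun p => A.dmat c p i k) box :=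
      fun i k => (A.dmat_smooth c i k).contDiffOn
    have hDt : ∀ i k, ContDiffOn ℝ ∞ (fun p => (A.dmat c p)ᵀ i k) box := fun i k => hD k i
    exact contDiffOn_entry_mul (contDiffOn_entry_mul (contDiffOn_entry_mul hD (hJ.smooth c))
      (contDiffOn_entry_inv (contDiffOn_entry_mul hDt hD) fun p hp => dmat_gram_det_ne A c hp)) hDt
  have hJeq : ∀ x ∈ A.X, J x = ∑ c, A.chi c x • T c (A.phi c x) := fun x hx => by
    conv_lhs => rw [← hJ.normal x hx]
    rw [Atlas.proj, Matrix.mul_sum]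
    refine Finset.sum_congr rfl fun c _ => ?_
    by_cases h : A.chi c x = 0
    · simp [h]
    obtain ⟨p, hp, rfl⟩ := A.chi_supp c x hx h
    have hp' := closedBall_subset_box hp
    rw [A.phi_psi c hp', Matrix.mul_smul, ← Matrix.mul_assoc, ← Matrix.mul_assoc,
      hJ.tangent c p hp']
  choose F hF hFe using fun c i k => exists_smooth_ext A c (hTs c i k)
  have hG : ∀ i k, ∃ C : NNReal, LipschitzOnWith C (fun x => ∑ c, F c i k x) A.X := fun i k =>
    LocallyLipschitzOn.exists_lipschitzOnWith_of_compact A.compact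
      (((ContDiff.sum fun c _ => hF c i k).of_le (by norm_num)).locallyLipschitz.locallyLipschitzOn)
  choose C hC using hG
  refine ⟨∑ i, ∑ k, (C i k : ℝ), by positivity, fun x hx y hy i k => ?_⟩
  have e : ∀ x ∈ A.X, J x i k = ∑ c, F c i k x := fun x hx => by
    rw [hJeq x hx, Matrix.sum_apply]
    exact Finset.sum_congr rfl fun c _ => by rw [hFe c i k x hx]; rfl
  rw [e x hx, e y hy]
  have h := (hC i k).dist_le_mul x hx y hy
  rw [Real.dist_eq, dist_eq_norm] at h
  refine h.trans (mul_le_mul_of_nonneg_right ?_ (norm_nonneg _))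
  exact (Finset.single_le_sum (f := fun k => (C i k : ℝ)) (fun _ _ => NNReal.coe_nonneg _)
    (Finset.mem_univ k)).trans (Finset.single_le_sum (f := fun i => ∑ k, (C i k : ℝ))
    (fun _ _ => by positivity) (Finset.mem_univ i))

theorem abs_entry_le (M : M4) (i k : Fin 4) : |M i k| ≤ Real.sqrt (sq2 M) := by
  rw [← Real.sqrt_sq_eq_abs]
  exact Real.sqrt_le_sqrt ((Finset.single_le_sum (f := fun k => M i k ^ 2)
    (fun _ _ => sq_nonneg _) (Finset.mem_univ k)).trans (Finset.single_le_sum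
    (f := fun i => ∑ k, M i k ^ 2) (fun _ _ => Finset.sum_nonneg fun _ _ => sq_nonneg _)
    (Finset.mem_univ i)))

theorem abs_wedge_le (M M' : M4) : |wedge M M'| ≤ 6 * Real.sqrt (sq2 M) * Real.sqrt (sq2 M') := by
  have h : ∀ a b c d : Fin 4, |M a b * M' c d| ≤ Real.sqrt (sq2 M) * Real.sqrt (sq2 M') :=
    fun a b c d => by
      rw [abs_mul]
      exact mul_le_mul (abs_entry_le M a b) (abs_entry_le M' c d) (abs_nonneg _) (Real.sqrt_nonneg _)
  have h1 := abs_le.1 (h 0 1 2 3)
  have h2 := abs_le.1 (h 0 2 1 3)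
  have h3 := abs_le.1 (h 0 3 1 2)
  have h4 := abs_le.1 (h 1 2 0 3)
  have h5 := abs_le.1 (h 1 3 0 2)
  have h6 := abs_le.1 (h 2 3 0 1)
  unfold wedge
  exact abs_le.2 ⟨by linarith, by linarith⟩

theorem continuousOn_dens (d : Fin K) : ContinuousOn (A.dens d) box := by
  refine (continuous_finsetSum _ fun c _ => ?_).continuousOn
  refine ((A.chi_smooth c).continuous.comp (A.psi_cont d)).mul ?_
  refine Continuous.matrix_det ?_
  have := fun a i => (A.dmat_smooth d a i).continuous
  refine continuous_matrix fun i k => ?_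
  simp only [Matrix.mul_apply]
  fun_prop

/-- Uniform bounds on the half-cubes. -/
theorem exists_chart_bounds {J : Amb N → MN N} (hJ : IsACS A J) :
    ∃ a b B : ℝ, 0 < a ∧ 0 < b ∧ ∀ d, ∀ p ∈ Metric.closedBall (0 : Pt) (1 / 2),
      a ≤ A.dens d p ∧ A.dens d p ≤ b ∧ ∀ i k, |A.jc J d p i k| ≤ B := by
  set S := Metric.closedBall (0 : Pt) (1 / 2)
  have hS : IsCompact S := isCompact_closedBall _ _
  have hd : ∀ d, ContinuousOn (A.dens d) S :=
    fun d => (continuousOn_dens A d).mono closedBall_subset_box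
  choose a ha0 ha using fun d => hS.exists_forall_le' (a := (0 : ℝ)) (hd d)
    fun p hp => dens_pos A hJ d (closedBall_subset_box hp)
  choose b hb using fun d => hS.exists_bound_of_continuousOn (hd d)
  have hj : ∀ d i k, ContinuousOn (fun p => A.jc J d p i k) S :=
    fun d i k => ((hJ.smooth d i k).continuousOn).mono closedBall_subset_box
  choose B hB using fun d i k => hS.exists_bound_of_continuousOn (hj d i k)
  refine ⟨(∑ d, (a d)⁻¹ + 1)⁻¹, ∑ d, |b d| + 1, ∑ d, ∑ i, ∑ k, |B d i k|,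
    inv_pos.2 (add_pos_of_nonneg_of_pos (Finset.sum_nonneg fun d _ => (inv_pos.2 (ha0 d)).le)
      one_pos), by positivity, fun d p hp => ⟨?_, ?_, fun i k => ?_⟩⟩
  · refine le_trans ?_ (ha d p hp)
    refine inv_le_of_inv_le₀ (ha0 d) ((le_add_of_nonneg_right zero_le_one).trans' ?_)
    exact Finset.single_le_sum (f := fun d => (a d)⁻¹) (fun e _ => (inv_pos.2 (ha0 e)).le)
      (Finset.mem_univ d)
  · calc A.dens d p ≤ ‖A.dens d p‖ := le_abs_self _
      _ ≤ |b d| := (hb d p hp).trans (le_abs_self _)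
      _ ≤ _ := (Finset.single_le_sum (f := fun d => |b d|) (fun _ _ => abs_nonneg _)
          (Finset.mem_univ d)).trans (le_add_of_nonneg_right zero_le_one)
  · calc |A.jc J d p i k| ≤ |B d i k| := (hB d i k p hp).trans (le_abs_self _)
      _ ≤ ∑ k, |B d i k| := Finset.single_le_sum (f := fun k => |B d i k|)
          (fun _ _ => abs_nonneg _) (Finset.mem_univ k)
      _ ≤ ∑ i, ∑ k, |B d i k| := Finset.single_le_sum (f := fun i => ∑ k, |B d i k|)
          (fun _ _ => Finset.sum_nonneg fun _ _ => abs_nonneg _) (Finset.mem_univ i)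
      _ ≤ _ := Finset.single_le_sum (f := fun d => ∑ i, ∑ k, |B d i k|)
          (fun _ _ => Finset.sum_nonneg fun _ _ => Finset.sum_nonneg fun _ _ => abs_nonneg _)
          (Finset.mem_univ d)

theorem chi_sq_le_sqX (d : Fin K) (x : Amb N) (M : MN N) :
    A.chi d x * sq2 (A.pullAt d M (A.phi d x)) ≤ A.sqX x M :=
  Finset.single_le_sum (f := fun c => A.chi c x * sq2 (A.pullAt c M (A.phi c x)))
    (fun c _ => mul_nonneg (A.chi_nonneg c x)
      (Finset.sum_nonneg fun _ _ => Finset.sum_nonneg fun _ _ => sq_nonneg _)) (Finset.mem_univ d)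

/-- The wedge product is bounded by the sizes. -/
theorem exists_wedgePt_le {J : Amb N → MN N} (hJ : IsACS A J) :
    ∃ C : ℝ, 0 ≤ C ∧ ∀ x ∈ A.X, ∀ M M',
      |A.wedgePt x M M'| ≤ C * Real.sqrt (A.sqX x M) * Real.sqrt (A.sqX x M') := by
  obtain ⟨a, b, B, ha, -, hbd⟩ := exists_chart_bounds A hJ
  refine ⟨∑ _d : Fin K, 6 / a, Finset.sum_nonneg fun _ _ => by positivity, fun x hx M M' => ?_⟩
  simp only [Atlas.wedgePt]
  refine (Finset.abs_sum_le_sum_abs _ _).trans ?_
  rw [Finset.sum_mul, Finset.sum_mul]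
  refine Finset.sum_le_sum fun d _ => ?_
  by_cases h : A.chi d x = 0
  · simp [h]; positivity
  obtain ⟨p, hp, rfl⟩ := A.chi_supp d x hx h
  have h1 := chi_sq_le_sqX A d (A.psi d p) M
  have h2 := chi_sq_le_sqX A d (A.psi d p) M'
  rw [A.phi_psi d (closedBall_subset_box hp)] at h1 h2 ⊢
  obtain ⟨hd, -, -⟩ := hbd d p hp
  have hd0 : 0 < A.dens d p := ha.trans_le hd
  set χ := A.chi d (A.psi d p)
  have hχ : 0 ≤ χ := A.chi_nonneg d _
  rw [abs_mul, abs_of_nonneg hχ, abs_div, abs_of_pos hd0]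
  have e : χ = Real.sqrt χ * Real.sqrt χ := (Real.mul_self_sqrt hχ).symm
  have hw : |wedge (A.pullAt d M p) (A.pullAt d M' p)| / A.dens d p ≤
      6 / a * (Real.sqrt (sq2 (A.pullAt d M p)) * Real.sqrt (sq2 (A.pullAt d M' p))) := by
    rw [div_mul_eq_mul_div, ← mul_assoc]
    exact div_le_div₀ (by positivity) (abs_wedge_le _ _) ha hd
  calc χ * (|wedge (A.pullAt d M p) (A.pullAt d M' p)| / A.dens d p)
      ≤ χ * (6 / a * (Real.sqrt (sq2 (A.pullAt d M p)) * Real.sqrt (sq2 (A.pullAt d M' p)))) :=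
        mul_le_mul_of_nonneg_left hw hχ
    _ = 6 / a * Real.sqrt (χ * sq2 (A.pullAt d M p)) * Real.sqrt (χ * sq2 (A.pullAt d M' p)) := by
        rw [Real.sqrt_mul hχ, Real.sqrt_mul hχ]
        conv_lhs => rw [e]
        ring
    _ ≤ _ := by gcongr

/-- The square of an anti-invariant form controls its size. -/
theorem exists_anti_wedge_ge {J : Amb N → MN N} (hJ : IsACS A J) :
    ∃ c : ℝ, 0 < c ∧ ∀ x ∈ A.X, ∀ M, Mᵀ = -M →
      c * A.sqX x (antiX J x M) ≤ A.wedgePt x (antiX J x M) (antiX J x M) := by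
  obtain ⟨a, b, B, ha, hb, hbd⟩ := exists_chart_bounds A hJ
  obtain ⟨c, hc, hlow⟩ := exists_anti_lower B
  refine ⟨c / b, div_pos hc hb, fun x hx M hM => ?_⟩
  simp only [Atlas.sqX, Atlas.wedgePt, Finset.mul_sum]
  refine Finset.sum_le_sum fun d _ => ?_
  by_cases h : A.chi d x = 0
  · simp [h]
  obtain ⟨p, hp, rfl⟩ := A.chi_supp d x hx h
  have hp' := closedBall_subset_box hp
  rw [A.phi_psi d hp', pullAt_antiX A hJ d hp', mul_left_comm]
  refine mul_le_mul_of_nonneg_left ?_ (A.chi_nonneg d _)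
  obtain ⟨hd, hd', hjb⟩ := hbd d p hp
  have hsk := pullAt_skew A d p hM
  have h1 := hlow _ (hJ.sq d p hp') hjb _ (antiP_skew hsk) (isAnti_antiP (hJ.sq d p hp') hsk)
  rw [oSgn_jc A hJ d hp', one_mul] at h1
  have hd0 : 0 < A.dens d p := ha.trans_le hd
  rw [div_mul_eq_mul_div]
  exact div_le_div₀ ((mul_nonneg hc.le (Finset.sum_nonneg fun _ _ => Finset.sum_nonneg fun _ _ =>
    sq_nonneg _)).trans h1) h1 hd0 hd'

theorem wedgePt_inv_anti {J : Amb N → MN N} (hJ : IsACS A J) {x : Amb N} (hx : x ∈ A.X)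
    {M M' : MN N} (hM : Mᵀ = -M) (hM' : M'ᵀ = -M') :
    A.wedgePt x (inv11X J x M) (antiX J x M') = 0 := by
  refine Finset.sum_eq_zero fun d _ => ?_
  by_cases h : A.chi d x = 0
  · simp [h]
  obtain ⟨p, hp, rfl⟩ := A.chi_supp d x hx h
  have hp' := closedBall_subset_box hp
  rw [A.phi_psi d hp', pullAt_antiX A hJ d hp', pullAt_inv11X A hJ d hp',
    wedge_inv11_antiP (hJ.sq d p hp') (pullAt_skew A d p hM) (pullAt_skew A d p hM')]
  simp

end Vale.Agent.P204.General
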