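import Mathlib
import Vale.Agent.P204.Torus.Defs

/-!
# P204: the divergence form of the wedge product with an exact form
-/

open MeasureTheory Matrix Filter
open scoped ContDiff Topology

namespace Vale.Agent.P204.General

open Vale.Agent.P204.Torus

theorem pd_mul_at {f g : Pt → ℝ} {p : Pt} (i : Fin 4) (hf : DifferentiableAt ℝ f p)
    (hg : DifferentiableAt ℝ g p) :
    pd i (fun q => f q * g q) p = f p * pd i g p + pd i f p * g p := by
  simp only [pd, fderiv_fun_mul hf hg, _root_.add_apply,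
    _root_.smul_apply, smul_eq_mul]
  ring

theorem pd_congr_nhds {f g : Pt → ℝ} {p : Pt} (i : Fin 4) (h : f =ᶠ[𝓝 p] g) : pd i f p = pd i g p := by
  simp only [pd, h.fderiv_eq]

theorem pd_eq_zero_nhds {f : Pt → ℝ} {p : Pt} (i : Fin 4) (h : f =ᶠ[𝓝 p] fun _ => 0) :
    pd i f p = 0 := by
  rw [pd_congr_nhds i h, pd, fderiv_fun_const]; rfl

theorem integral_pd_eq_zero {F : Pt → ℝ} (hF : ContDiff ℝ ∞ F) (hc : HasCompactSupport F)
    (i : Fin 4) : ∫ p, pd i F p = 0 := by
  have hd : Continuous fun p => fderiv ℝ F p (Pi.single i 1) :=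
    (hF.continuous_fderiv (by norm_num)).clm_apply continuous_const
  have hs : HasCompactSupport fun p => fderiv ℝ F p (Pi.single i 1) :=
    (hc.fderiv (𝕜 := ℝ)).comp_left (g := fun T : Pt →L[ℝ] ℝ => T (Pi.single i 1)) rfl
  have h := integral_mul_fderiv_eq_neg_fderiv_mul_of_integrable (μ := (volume : Measure Pt))
    (f := fun _ => (1 : ℝ)) (g := F) (v := Pi.single i 1) (by simp)
    (by simpa using hd.integrable_of_hasCompactSupport hs)
    (by simpa using hF.continuous.integrable_of_hasCompactSupport hc)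
    (fun x _ => differentiableAt_const _) (fun x _ => (hF.differentiable (by norm_num)).differentiableAt)
  simpa [pd] using h

/-- The components of the product of a one-form and a two-form. -/
def flux (g : Fin 4 → ℝ) (α : M4) : Fin 4 → ℝ :=
  ![g 1 * α 2 3 - g 2 * α 1 3 + g 3 * α 1 2,
    -(g 0 * α 2 3 - g 2 * α 0 3 + g 3 * α 0 2),
    g 0 * α 1 3 - g 1 * α 0 3 + g 3 * α 0 1,
    -(g 0 * α 1 2 - g 1 * α 0 2 + g 2 * α 0 1)]

variable {S : Set Pt} (hS : IsCompact S) (hSb : S ⊆ Metric.ball 0 1)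
  {γ : Pt → Pt} (hγ : ∀ k, ContDiff ℝ ∞ fun q => γ q k) (hγS : ∀ q ∉ S, γ q = 0)
  {α : Pt → M4} (hα : ∀ i k, ContDiffOn ℝ ∞ (fun q => α q i k) (Metric.ball 0 1))
  (hsk : ∀ q ∈ Metric.ball (0 : Pt) 1, (α q)ᵀ = -α q)
  (hcl : ∀ q ∈ Metric.ball (0 : Pt) 1, ∀ i j k, pd i (fun p => α p j k) q + pd j (fun p => α p k i) q
      + pd k (fun p => α p i j) q = 0)
include hS hSb hγ hγS hα

theorem contDiff_gamma_mul (m a b : Fin 4) : ContDiff ℝ ∞ fun q => γ q m * α q a b :=
  contDiff_iff_contDiffAt.2 fun p => by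
    by_cases hp : p ∈ S
    · exact (hγ m).contDiffAt.mul ((hα a b).contDiffAt (Metric.isOpen_ball.mem_nhds (hSb hp)))
    · refine contDiffAt_const (c := (0 : ℝ)).congr_of_eventuallyEq ?_
      filter_upwards [hS.isClosed.isOpen_compl.mem_nhds hp] with q hq
      simp [hγS q hq]

theorem contDiff_flux (i : Fin 4) : ContDiff ℝ ∞ fun q => flux (γ q) (α q) i := by
  have h := contDiff_gamma_mul hS hSb hγ hγS hα
  fin_cases i
  · exact ((h 1 2 3).sub (h 2 1 3)).add (h 3 1 2)
  · exact (((h 0 2 3).sub (h 2 0 3)).add (h 3 0 2)).neg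
  · exact ((h 0 1 3).sub (h 1 0 3)).add (h 3 0 1)
  · exact (((h 0 1 2).sub (h 1 0 2)).add (h 2 0 1)).neg

include hsk hcl

/-- Stokes for a compactly supported one-form in a chart. -/
theorem integral_wedge_dOne_eq_zero : ∫ q, wedge (dOne γ q) (α q) = 0 := by
  have hF := contDiff_flux hS hSb hγ hγS hα
  have hFc : ∀ i, HasCompactSupport fun q => flux (γ q) (α q) i := fun i =>
    HasCompactSupport.intro hS fun q hq => by
      fin_cases i <;> simp [flux, hγS q hq]
  have key : ∀ q, wedge (dOne γ q) (α q) = ∑ i, pd i (fun p => flux (γ p) (α p) i) q := fun q => by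
    by_cases hq : q ∈ Metric.ball (0 : Pt) 1
    · have dg : ∀ k, DifferentiableAt ℝ (fun p => γ p k) q :=
        fun k => ((hγ k).differentiable (by norm_num)).differentiableAt
      have da : ∀ i k, DifferentiableAt ℝ (fun p => α p i k) q := fun i k =>
        ((hα i k).contDiffAt (Metric.isOpen_ball.mem_nhds hq)).differentiableAt (by norm_num)
      have dp : ∀ m a b, DifferentiableAt ℝ (fun p => γ p m * α p a b) q :=
        fun m a b => (dg m).mul (da a b)
      have hn : ∀ a b i, pd i (fun p => α p b a) q = -pd i (fun p => α p a b) q := fun a b i => by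
        have e : (fun p => α p b a) =ᶠ[𝓝 q] fun p => -α p a b := by
          filter_upwards [Metric.isOpen_ball.mem_nhds hq] with p hp
          exact congr_fun (congr_fun (hsk p hp) a) b
        rw [pd_congr_nhds i e, pd, fderiv_fun_neg]; rfl
      have c1 := hcl q hq 0 1 2
      have c2 := hcl q hq 0 1 3
      have c3 := hcl q hq 0 2 3
      have c4 := hcl q hq 1 2 3
      rw [hn 0 2 1] at c1
      rw [hn 0 3 1] at c2
      rw [hn 0 3 2] at c3
      rw [hn 1 3 2] at c4
      have hflux : ∀ i (f : Pt → ℝ), DifferentiableAt ℝ f q →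
          pd i (fun p => -f p) q = -pd i f q := fun i f hf => by
        rw [pd, fderiv_fun_neg]; rfl
      have hadd : ∀ i (f g k : Pt → ℝ), DifferentiableAt ℝ f q → DifferentiableAt ℝ g q →
          DifferentiableAt ℝ k q →
          pd i (fun p => f p - g p + k p) q = pd i f q - pd i g q + pd i k q := fun i f g k hf hg hk => by
        rw [pd, fderiv_fun_add (hf.fun_sub hg) hk, fderiv_fun_sub hf hg]
        rfl
      simp only [Fin.sum_univ_four, flux, Matrix.cons_val_zero, Matrix.cons_val_one, Matrix.cons_val]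
      rw [hflux _ _ (((dp _ _ _).fun_sub (dp _ _ _)).fun_add (dp _ _ _)),
        hflux _ _ (((dp _ _ _).fun_sub (dp _ _ _)).fun_add (dp _ _ _))]
      simp only [hadd _ _ _ _ (dp _ _ _) (dp _ _ _) (dp _ _ _), pd_mul_at _ (dg _) (da _ _), wedge,
        dOne, Matrix.of_apply]
      linear_combination -γ q 3 * c1 + γ q 2 * c2 - γ q 1 * c3 + γ q 0 * c4
    · have hz : ∀ m, (fun p => γ p m) =ᶠ[𝓝 q] fun _ => 0 := fun m => by
        filter_upwards [hS.isClosed.isOpen_compl.mem_nhds fun h => hq (hSb h)] with p hp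
        simp [hγS p hp]
      have hzf : ∀ i, (fun p => flux (γ p) (α p) i) =ᶠ[𝓝 q] fun _ => 0 := fun i => by
        filter_upwards [hS.isClosed.isOpen_compl.mem_nhds fun h => hq (hSb h)] with p hp
        fin_cases i <;> simp [flux, hγS p hp]
      simp [wedge, dOne, pd_eq_zero_nhds _ (hz _), pd_eq_zero_nhds _ (hzf _)]
  simp only [key]
  rw [integral_finsetSum _ fun i _ => ?_]
  · exact Finset.sum_eq_zero fun i _ => integral_pd_eq_zero (hF i) (hFc i) i
  · exact (((hF i).continuous_fderiv (by norm_num)).clm_apply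
      continuous_const).integrable_of_hasCompactSupport
      (((hFc i).fderiv (𝕜 := ℝ)).comp_left (g := fun T : Pt →L[ℝ] ℝ => T (Pi.single i 1)) rfl)

end Vale.Agent.P204.General
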