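import Mathlib
import Vale.Agent.P204.General.Basic.Bounds
import Vale.Agent.P204.General.Basic.Flux
import Vale.Agent.P204.General.Stmts

/-!
# P204 on a closed four-manifold: integration in charts and Stokes
-/

open MeasureTheory Matrix Filter
open scoped ContDiff Topology

namespace Vale.Agent.P204.General

open Vale.Agent.P204.Torus

variable {N K : ℕ} (A : Atlas N K)

/-- A function continuous in every chart is continuous on the manifold. -/
theorem continuousOn_of_charts {h : Amb N → ℝ}
    (hc : ∀ c, ContinuousOn (fun p => h (A.psi c p)) box) : ContinuousOn h A.X := by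
  intro x hx
  obtain ⟨c, hcx, -⟩ := A.exists_chart hx
  have hi := A.chi_image hx hcx
  obtain ⟨U, hU, hXU⟩ := A.open_image c
  have hxU : x ∈ U := (hXU.symm ▸ hi : x ∈ A.X ∩ U).2
  have h1 : ContinuousWithinAt (fun y => h (A.psi c (A.phi c y))) A.X x :=
    (((hc c).continuousAt (isOpen_box.mem_nhds (A.phi_mem c hi))).comp
      (A.phi_cont c).continuousAt).continuousWithinAt
  refine h1.congr_of_eventuallyEq ?_ (by rw [A.psi_phi c hi])
  filter_upwards [mem_nhdsWithin_of_mem_nhds (hU.mem_nhds hxU), self_mem_nhdsWithin] with y hy hyX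
  rw [A.psi_phi c (hXU ▸ ⟨hyX, hy⟩ : y ∈ A.psi c '' box)]

theorem restrict_X : A.vol.restrict A.X = A.vol := Measure.restrict_eq_self_of_ae_mem (ae_mem_X A)

theorem integrable_of_continuousOn {h : Amb N → ℝ} (hc : ContinuousOn h A.X) :
    Integrable h A.vol := by
  obtain ⟨C, hC⟩ := A.compact.exists_bound_of_continuousOn hc
  refine Integrable.of_bound ?_ C ((ae_mem_X A).mono hC)
  rw [← restrict_X A]
  exact hc.aestronglyMeasurable (measurableSet_X A)

theorem trans_hasFDeriv (c e : Fin K) (q : Pt) : HasFDerivAt (A.trans c e)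
    (Matrix.mulVecLin (A.L c * A.dmat e q)).toContinuousLinearMap q := by
  have h := ((Matrix.mulVecLin (A.L c)).toContinuousLinearMap.hasFDerivAt).comp q
    ((A.psi_diff e q).hasFDerivAt.sub_const (A.o c))
  refine HasFDerivAt.congr_fderiv (h : HasFDerivAt (A.trans c e) _ q)
    (ContinuousLinearMap.ext fun u => ?_)
  show A.L c *ᵥ fderiv ℝ (A.psi e) q u = (A.L c * A.dmat e q) *ᵥ u
  rw [← mulVec_mulVec, A.dmat_mulVec]

theorem det_mulVecLin (T : M4) :
    (Matrix.mulVecLin T).toContinuousLinearMap.det = T.det :=
  (LinearMap.det_toLin' T)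

/-- The part of a chart lying in another chart. -/
def overlap (c e : Fin K) : Set Pt := box ∩ A.psi c ⁻¹' (A.psi e '' box)

theorem isOpen_overlap (c e : Fin K) : IsOpen (overlap A c e) := by
  obtain ⟨U, hU, hXU⟩ := A.open_image e
  have : overlap A c e = box ∩ A.psi c ⁻¹' U := by
    ext p
    simp only [overlap, Set.mem_inter_iff, Set.mem_preimage, ← hXU]
    exact ⟨fun h => ⟨h.1, h.2.2⟩, fun h => ⟨h.1, A.psi_mem c p h.1, h.2⟩⟩
  rw [this]
  exact isOpen_box.inter (hU.preimage (A.psi_cont c))

theorem trans_image (c e : Fin K) : A.trans c e '' overlap A e c = overlap A c e := by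
  ext p
  constructor
  · rintro ⟨q, ⟨hq, hqc⟩, rfl⟩
    exact ⟨A.phi_mem c hqc, ⟨q, hq, (A.psi_phi c hqc).symm⟩⟩
  · rintro ⟨hp, ⟨q, hq, he⟩⟩
    exact ⟨q, ⟨hq, p, hp, he.symm⟩, by rw [Atlas.trans, he, A.phi_psi c hp]⟩

theorem trans_injOn (c e : Fin K) : Set.InjOn (A.trans c e) (overlap A e c) := by
  rintro q ⟨hq, hqc⟩ q' ⟨hq', hqc'⟩ he
  have h := congrArg (A.psi c) he
  simp only [Atlas.trans, A.psi_phi c hqc, A.psi_phi c hqc'] at h
  rw [← A.phi_psi e hq, h, A.phi_psi e hq']

/-- A function supported well inside a chart is integrated in that chart against the density. -/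
theorem integral_eq_chart {J : Amb N → MN N} (hJ : IsACS A J) (e : Fin K) {h : Amb N → ℝ}
    (hc : ContinuousOn h A.X)
    (h0 : ∀ x ∈ A.X, x ∉ A.psi e '' Metric.closedBall 0 (1 / 2) → h x = 0) :
    ∫ x, h x ∂A.vol = ∫ q in box, A.dens e q * h (A.psi e q) := by
  have hint := integrable_of_continuousOn A hc
  have hmap : ∀ c, Integrable h ((chartVol A c).map (A.psi c)) := fun c =>
    hint.mono_measure (by
      rw [vol_eq]
      exact Finset.single_le_sum (f := fun c => (chartVol A c).map (A.psi c))
        (fun _ _ => Measure.zero_le _) (Finset.mem_univ c))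
  rw [vol_eq, integral_finsetSum_measure fun c _ => hmap c]
  have hterm : ∀ c, ∫ x, h x ∂(chartVol A c).map (A.psi c) =
      ∫ q in box, A.chi c (A.psi e q) * (A.L c * A.dmat e q).det * h (A.psi e q) := fun c => by
    have hm : Measurable fun p => ENNReal.ofReal (A.chi c (A.psi c p)) :=
      (ENNReal.continuous_ofReal.comp
        ((A.chi_smooth c).continuous.comp (A.psi_cont c))).measurable
    rw [integral_map (A.psi_cont c).measurable.aemeasurable (hmap c).aestronglyMeasurable, chartVol,
      integral_withDensity_eq_integral_toReal_smul hm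
        (Eventually.of_forall fun _ => ENNReal.ofReal_lt_top)]
    simp only [ENNReal.toReal_ofReal (A.chi_nonneg c _), smul_eq_mul]
    rw [setIntegral_eq_of_subset_of_forall_sdiff_eq_zero isOpen_box.measurableSet
      (s := overlap A c e) Set.inter_subset_left fun p hp => by
        rw [h0 _ (A.psi_mem c p hp.1) fun hmem => hp.2 ⟨hp.1, A.mem_box_image hmem⟩, mul_zero]]
    conv_lhs => rw [← trans_image A c e]
    rw [integral_image_eq_integral_abs_det_fderiv_smul volume
      (isOpen_overlap A e c).measurableSet
      (fun q _ => (trans_hasFDeriv A c e q).hasFDerivWithinAt) (trans_injOn A c e)]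
    rw [setIntegral_eq_of_subset_of_forall_sdiff_eq_zero isOpen_box.measurableSet
      (s := overlap A e c) Set.inter_subset_left fun q hq => by
        by_cases hχ : A.chi c (A.psi e q) = 0
        · simp [hχ]
        · exact absurd ⟨hq.1, A.chi_image (A.psi_mem e q hq.1) hχ⟩ hq.2]
    refine setIntegral_congr_fun (isOpen_overlap A e c).measurableSet fun q hq => ?_
    simp only [det_mulVecLin, smul_eq_mul, Atlas.trans, A.psi_phi c hq.2]
    rw [abs_of_pos (det_trans_pos A hJ c e hq.1 hq.2)]
    ring
  simp only [hterm]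
  rw [← integral_finsetSum _ fun c _ => ?_]
  · exact setIntegral_congr_fun isOpen_box.measurableSet fun q _ => by
      simp only [Atlas.dens, Finset.sum_mul]
  · have hg : ContinuousOn
        (fun q => A.chi c (A.psi e q) * (A.L c * A.dmat e q).det * h (A.psi e q)) box := by
      refine ((((A.chi_smooth c).continuous.comp (A.psi_cont e)).mul
        (Continuous.matrix_det ?_)).continuousOn).mul
        (hc.comp (A.psi_cont e).continuousOn fun q hq => A.psi_mem e q hq)
      have := fun a i => (A.dmat_smooth e a i).continuous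
      refine continuous_matrix fun i k => ?_
      simp only [Matrix.mul_apply]
      fun_prop
    have h1 := (hg.mono closedBall_subset_box).integrableOn_compact (μ := volume)
      (isCompact_closedBall (0 : Pt) (1 / 2))
    exact IntegrableOn.of_forall_sdiff_eq_zero h1 isOpen_box.measurableSet fun q hq => by
      rw [h0 _ (A.psi_mem e q hq.1) fun ⟨p, hp, he⟩ => hq.2 (by
        rw [← A.phi_psi e hq.1, ← he, A.phi_psi e (closedBall_subset_box hp)]; exact hp), mul_zero]

/-- The ambient gradient. -/
noncomputable def grad (u : Amb N → ℝ) (x : Amb N) : Amb N :=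
  fun a => fderiv ℝ u x (Pi.single a 1)

/-- The product of a gradient and a one-form. -/
noncomputable def gradWedge (u : Amb N → ℝ) (b : Amb N → Amb N) (x : Amb N) : MN N :=
  vecMulVec (grad u x) (b x) - vecMulVec (b x) (grad u x)

theorem gradWedge_skew (u : Amb N → ℝ) (b : Amb N → Amb N) (x : Amb N) :
    (gradWedge u b x)ᵀ = -gradWedge u b x := by
  rw [gradWedge, transpose_sub, transpose_vecMulVec, transpose_vecMulVec, neg_sub]

theorem pd_comp_psi (c : Fin K) {u : Amb N → ℝ} (hu : ContDiff ℝ ∞ u) (p : Pt) (i : Fin 4) :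
    pd i (fun q => u (A.psi c q)) p = ((A.dmat c p)ᵀ *ᵥ grad u (A.psi c p)) i := by
  have h := ((hu.differentiable (by norm_num)).differentiableAt.hasFDerivAt).comp p
    (A.psi_diff c p).hasFDerivAt
  rw [pd, show fderiv ℝ (fun q => u (A.psi c q)) p = _ from h.fderiv,
    ContinuousLinearMap.comp_apply]
  set v := fderiv ℝ (A.psi c) p (Pi.single i 1)
  have hv : v = ∑ a, v a • Pi.single (M := fun _ => ℝ) a 1 := by
    funext k; simp [Finset.sum_apply, Pi.single_apply]
  conv_lhs => rw [hv, map_sum]
  simp only [map_smul, smul_eq_mul, mulVec, dotProduct, transpose_apply, A.dmat_apply, grad]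
  exact Finset.sum_congr rfl fun a _ => rfl

theorem pullAt_gradWedge (c : Fin K) {u : Amb N → ℝ} (hu : ContDiff ℝ ∞ u) (b : Amb N → Amb N)
    (p : Pt) (i k : Fin 4) :
    A.pullAt c (gradWedge u b (A.psi c p)) p i k =
      pd i (fun q => u (A.psi c q)) p * A.pullOne c b p k -
        A.pullOne c b p i * pd k (fun q => u (A.psi c q)) p := by
  simp only [Atlas.pullAt, gradWedge, Matrix.mul_sub, Matrix.sub_mul, mul_vecMulVec, vecMulVec_mul,
    Matrix.sub_apply, vecMulVec_apply, pd_comp_psi A c hu, Atlas.pullOne, mulVec_transpose]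

theorem pd_smooth {f : Pt → ℝ} {s : Set Pt} (hs : IsOpen s) (hf : ContDiffOn ℝ ∞ f s) (i : Fin 4) :
    ContDiffOn ℝ ∞ (fun p => pd i f p) s :=
  (hf.fderiv_of_isOpen hs (by norm_num)).clm_apply contDiffOn_const

theorem continuousOn_wedgePt {M M' : Amb N → MN N} (hs : ∀ x, (M x)ᵀ = -M x)
    (hs' : ∀ x, (M' x)ᵀ = -M' x) {J : Amb N → MN N} (hJ : IsACS A J)
    (hM : ∀ c i k, ContinuousOn (fun p => A.pull c M p i k) box)
    (hM' : ∀ c i k, ContinuousOn (fun p => A.pull c M' p i k) box) :
    ContinuousOn (fun x => A.wedgePt x (M x) (M' x)) A.X := by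
  refine continuousOn_of_charts A fun c => ?_
  refine ContinuousOn.congr
    (f := fun p => wedge (A.pull c M p) (A.pull c M' p) / A.dens c p) ?_
    fun p hp => wedgePt_chart A (hs _) (hs' _) c hp
  refine ContinuousOn.div ?_ (continuousOn_dens A c) fun p hp => (dens_pos A hJ c hp).ne'
  have h : ∀ i j k l, ContinuousOn (fun p => A.pull c M p i j * A.pull c M' p k l) box :=
    fun i j k l => (hM c i j).mul (hM' c k l)
  simp only [wedge]
  exact (((((h 0 1 2 3).sub (h 0 2 1 3)).add (h 0 3 1 2)).add (h 1 2 0 3)).sub (h 1 3 0 2)).add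
    (h 2 3 0 1)

/-- Stokes on the manifold. -/
theorem wedgeInt_exact {J : Amb N → MN N} (hJ : IsACS A J) {b : Amb N → Amb N}
    {a a' : Amb N → MN N} (hb : IsOneX A b) (ha : IsTestX A a) (hab : IsDOne A a b)
    (ha' : IsClosedX A a') : A.wedgeInt a a' = 0 := by
  set f : Amb N → ℝ := fun x => A.wedgePt x (a x) (a' x)
  set g : Fin K → Amb N → ℝ :=
    fun e x => A.wedgePt x (gradWedge (A.chi e) b x) (a' x) with hg
  have hu : ∀ e c, ContDiff ℝ ∞ fun q => A.chi e (A.psi c q) :=
    fun e c => (A.chi_smooth e).comp (A.psi_smooth c)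
  have hgW : ∀ e c i k, ContinuousOn (fun p => A.pull c (gradWedge (A.chi e) b) p i k) box := by
    intro e c i k
    simp only [Atlas.pull, pullAt_gradWedge A c (A.chi_smooth e)]
    have h1 := fun i => (pd_smooth isOpen_box ((hu e c).contDiffOn) i).continuousOn
    exact ((h1 i).mul (hb c k).continuousOn).sub ((hb c i).continuousOn.mul (h1 k))
  have hfc : ContinuousOn f A.X := continuousOn_wedgePt A ha.skew ha'.skew hJ
    (fun c i k => (ha.smooth c i k).continuousOn) fun c i k => (ha'.smooth c i k).continuousOn
  have hgc : ∀ e, ContinuousOn (g e) A.X := fun e => continuousOn_wedgePt A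
    (gradWedge_skew _ b) ha'.skew hJ (hgW e) fun c i k => (ha'.smooth c i k).continuousOn
  have hchi : ∀ e, ContinuousOn (fun x => A.chi e x * f x) A.X :=
    fun e => (A.chi_smooth e).continuous.continuousOn.mul hfc
  -- the gradient terms cancel
  have hsum : ∀ x ∈ A.X, ∑ e, g e x = 0 := fun x hx => by
    obtain ⟨c, hc, -⟩ := A.exists_chart hx
    obtain ⟨p, hp, rfl⟩ := A.chi_image hx hc
    have h1 : ∀ i, ∑ e, pd i (fun q => A.chi e (A.psi c q)) p = 0 := fun i => by
      have e1 : (fun q => ∑ e, A.chi e (A.psi c q)) =ᶠ[𝓝 p] fun _ => (1 : ℝ) :=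
        eventually_of_mem (isOpen_box.mem_nhds hp) fun q hq => A.chi_sum _ (A.psi_mem c q hq)
      have e2 := pd_congr_nhds i e1
      simp only [pd, fderiv_fun_const] at e2
      rw [fderiv_fun_sum fun e _ => ((hu e c).differentiable (by norm_num)).differentiableAt] at e2
      simpa [pd] using e2
    have h2 : ∀ i k, ∑ e, A.pullAt c (gradWedge (A.chi e) b (A.psi c p)) p i k = 0 := fun i k => by
      simp only [pullAt_gradWedge A c (A.chi_smooth _), Finset.sum_sub_distrib, ← Finset.sum_mul,
        ← Finset.mul_sum, h1, zero_mul, mul_zero, sub_zero]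
    simp only [hg, wedgePt_chart A (gradWedge_skew _ _ _) (ha'.skew _) c hp, ← Finset.sum_div]
    simp only [wedge, Finset.sum_add_distrib, Finset.sum_sub_distrib, ← Finset.sum_mul, h2,
      zero_mul, add_zero, sub_zero, zero_div]
  -- each localised piece integrates to zero
  have hpiece : ∀ e, ∫ x, (A.chi e x * f x + g e x) ∂A.vol = 0 := fun e => by
    rw [integral_eq_chart A hJ e (h := fun x => A.chi e x * f x + g e x) ((hchi e).add (hgc e))
      fun x hx hne => ?_]
    · set u : Pt → ℝ := fun q => A.chi e (A.psi e q)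
      set S := Metric.closedBall (0 : Pt) (3 / 4)
      let bump : ContDiffBump (0 : Pt) := ⟨1 / 2, 3 / 4, by norm_num, by norm_num⟩
      have hSb : S ⊆ Metric.ball 0 1 := Metric.closedBall_subset_ball (by norm_num)
      set γ : Pt → Pt := fun q k => bump q * (u q * A.pullOne e b q k) with hγdef
      have hγS : ∀ q ∉ S, γ q = 0 := fun q hq => by
        have : bump q = 0 := bump.zero_of_le_dist (le_of_lt (not_le.1 hq))
        funext k; simp [hγdef, this]
      have hγ : ∀ k, ContDiff ℝ ∞ fun q => γ q k := fun k => contDiff_iff_contDiffAt.2 fun p => by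
        by_cases hp : p ∈ S
        · exact bump.contDiff.contDiffAt.mul (((hu e e).contDiffAt).mul
            ((hb e k).contDiffAt (isOpen_box.mem_nhds (hSb hp))))
        · refine contDiffAt_const (c := (0 : ℝ)).congr_of_eventuallyEq ?_
          filter_upwards [Metric.isClosed_closedBall.isOpen_compl.mem_nhds hp] with q hq
          simp [hγS q hq]
      have hloc : ∀ q ∈ box, ∀ k, γ q k = u q * A.pullOne e b q k := fun q hq k => by
        by_cases h : u q = 0
        · simp [hγdef, h]
        · obtain ⟨p, hp, he⟩ := A.chi_supp e _ (A.psi_mem e q hq) h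
          have : q = p := by rw [← A.phi_psi e hq, ← he, A.phi_psi e (closedBall_subset_box hp)]
          simp [hγdef, bump.one_of_mem_closedBall (this ▸ hp : q ∈ Metric.closedBall 0 bump.rIn)]
      have hz := integral_wedge_dOne_eq_zero (isCompact_closedBall 0 (3 / 4)) hSb hγ hγS
        (α := A.pull e a') (fun i k => ha'.smooth e i k)
        (fun q _ => pullAt_skew A e q (ha'.skew _)) (fun q hq => ha'.closed e q hq)
      rw [← setIntegral_eq_integral_of_forall_compl_eq_zero (s := box) (fun q hq => ?_)] at hz
      · rw [← hz]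
        refine setIntegral_congr_fun isOpen_box.measurableSet fun q hq => ?_
        have hd := (dens_pos A hJ e hq).ne'
        have hdo : ∀ i k, dOne γ q i k = u q * A.pullAt e (a (A.psi e q)) q i k +
            A.pullAt e (gradWedge (A.chi e) b (A.psi e q)) q i k := fun i k => by
          have hae : A.pullAt e (a (A.psi e q)) q = dOne (A.pullOne e b) q := hab e q hq
          have hp : ∀ i k, pd i (fun p => γ p k) q =
              u q * pd i (fun p => A.pullOne e b p k) q + pd i u q * A.pullOne e b q k := fun i k => by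
            rw [pd_congr_nhds i (eventually_of_mem (isOpen_box.mem_nhds hq) fun p hp => hloc p hp k),
              pd_mul_at i ((hu e e).differentiable (by norm_num)).differentiableAt
              (((hb e k).contDiffAt (isOpen_box.mem_nhds hq)).differentiableAt (by norm_num))]
          rw [pullAt_gradWedge A e (A.chi_smooth e), hae]
          simp only [dOne, Matrix.of_apply, hp]
          ring
        simp only [hg, f, wedgePt_chart A (ha.skew _) (ha'.skew _) e hq,
          wedgePt_chart A (gradWedge_skew _ _ _) (ha'.skew _) e hq]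
        simp only [wedge, hdo, Atlas.pull]
        field_simp
        simp only [u]
        ring
      · have e0 : ∀ k, (fun p => γ p k) =ᶠ[𝓝 q] fun _ => 0 := fun k => by
          filter_upwards [Metric.isClosed_closedBall.isOpen_compl.mem_nhds
            fun h => hq (hSb h)] with p hp
          simp [hγS p hp]
        simp [wedge, dOne, pd_eq_zero_nhds _ (e0 _)]
    · have hχ : A.chi e x = 0 := by
        by_contra h; exact hne (A.chi_supp e x hx h)
      obtain ⟨c, hc, -⟩ := A.exists_chart hx
      obtain ⟨p, hp, rfl⟩ := A.chi_image hx hc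
      have h1 : ∀ i, pd i (fun q => A.chi e (A.psi c q)) p = 0 := fun i => by
        refine pd_eq_zero_nhds i ?_
        filter_upwards [isOpen_box.mem_nhds hp, (A.psi_cont c).continuousAt.preimage_mem_nhds
          ((((isCompact_closedBall (0 : Pt) (1 / 2)).image (A.psi_cont e)).isClosed.isOpen_compl).mem_nhds
            hne)] with q hq hq'
        by_contra h
        exact hq' (A.chi_supp e _ (A.psi_mem c q hq) h)
      simp only [hg, wedgePt_chart A (gradWedge_skew _ _ _) (ha'.skew _) c hp, hχ, zero_mul]
      simp [wedge, pullAt_gradWedge A c (A.chi_smooth e), h1]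
  have hint : ∀ e, Integrable (fun x => A.chi e x * f x + g e x) A.vol :=
    fun e => integrable_of_continuousOn A ((hchi e).add (hgc e))
  calc A.wedgeInt a a' = ∫ x, ∑ e, (A.chi e x * f x + g e x) ∂A.vol := by
        refine integral_congr_ae ((ae_mem_X A).mono fun x hx => ?_)
        simp only [Finset.sum_add_distrib, hsum x hx, add_zero, ← Finset.sum_mul, A.chi_sum x hx,
          one_mul, f]
    _ = 0 := by
        rw [integral_finsetSum _ fun e _ => hint e]
        exact Finset.sum_eq_zero fun e _ => hpiece e

end Vale.Agent.P204.General
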