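import Mathlib
import Vale.Agent.P204.General.Basic.Bounds
import Vale.Agent.P204.General.Basic.Stokes
import Vale.Agent.P204.General.Stmts

/-!
# P204 on a closed four-manifold: the basic facts
-/

open MeasureTheory Matrix Filter
open scoped ContDiff Topology

namespace Vale.Agent.P204.General

/-- The basic facts on the reference measure, the orientation and Stokes. -/
theorem basicStmt : BasicStmt := by
  intro N K A J hJ
  obtain ⟨Cv, hCv, hv⟩ := exists_vol_ball A
  obtain ⟨Cj, hCj, hj⟩ := exists_J_lipschitz A hJ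
  obtain ⟨Cw, hCw, hw⟩ := exists_wedgePt_le A hJ
  obtain ⟨c, hc, ha⟩ := exists_anti_wedge_ge A hJ
  refine ⟨c, Cv + Cj + Cw, hc, inferInstance, ae_mem_X A, fun x r hr => (hv x r hr).trans ?_,
    fun x hx y hy i k => (hj x hx y hy i k).trans ?_, fun x hx M M' => (hw x hx M M').trans ?_,
    ha, fun x hx M M' hM hM' => wedgePt_inv_anti A hJ hx hM hM',
    fun b a a' hb h1 h2 h3 => wedgeInt_exact A hJ hb h1 h2 h3⟩
  · gcongr; linarith
  · gcongr; linarith
  · gcongr; linarith

end Vale.Agent.P204.General
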